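import Vale.Agent.P128.Main

open MeasureTheory Set Topology

namespace Vale.Agent.Results.P128.MumfordShah

open Vale.Agent.P128

/-- The Mumford-Shah conjecture, interior form. -/
theorem result (Ω : Set ℂ) (g u : ℂ → ℝ) (G : ℂ → ℂ) (K : Set ℂ) (hΩ : IsOpen Ω)
    (hg : MemLp g ⊤ (volume.restrict Ω)) (hmin : IsMin Ω g u G K) (hred : Reduced Ω K) :
    ∀ x ∈ K, ∃ N ∈ 𝓝 x, N ⊆ Ω ∧ ∃ α : ℝ, 0 < α ∧ IsModel α x (K ∩ N) :=
  final reg_all brg_all lc_all int_all Ω g u G K hΩ hg hmin hred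

end Vale.Agent.Results.P128.MumfordShah
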